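import Vale.Agent.P251.X.HQ

/-!
# P241, block NIL: the rational step

`K` is a rational ring object (`π_* K = ℚ` in degree `0`), `Y` a compact object with `K ⊗ Y = 0`.
Then `m • 𝟙 Y = 0` for some integer `m ≠ 0`.

* `nonempty_iso_HQ` : `K` is the telescope of the multiplications on an object `H` with a map
  `𝟙 ⟶ H` with `2`-connective cellular cofibre;
* `conn_succ_of_isZero` : `H ⊗ Z = 0` and `Conn m Z` imply `Conn (m + 1) Z`;
* `exists_zsmul_eq_zero` : the result for a compact object which is bounded below;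
* `exists_conn_of_dual` : dualizable objects are bounded below;
* `exists_zsmul_eq_zero_of_dual`, `exists_cop_mul_pow` : the form used in block NIL.
-/

open CategoryTheory MonoidalCategory Limits Pretriangulated
open Vale.Agent.P251.T Vale.Agent.P251.S Vale.Agent.P251.H Vale.Agent.P251.M
  Vale.Agent.P251.I Vale.Agent.P251.X

universe v u

set_option linter.unusedSectionVars false

namespace Vale.Agent.P241.H388

variable {T : Type u} [Category.{v} T] [Preadditive T] [HasZeroObject T]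
    [HasShift T ℤ] [∀ n : ℤ, (shiftFunctor T n).Additive] [Pretriangulated T] [IsTriangulated T]
    [MonoidalCategory T] [SymmetricCategory T] [TensorTriangulated T] [MonoidalClosed T]
    [HasCoproducts.{0} T] [HasProducts.{0} T] [StableCat T]

/-! ### Connectivity -/

/-- Coproducts of connective objects are connective. -/
theorem conn_coprod {n : ℤ} {I : Type} (X : I → T) (h : ∀ i, Conn n (X i)) : Conn n (∐ X) := by
  intro k hk f
  obtain ⟨s, g, rfl⟩ := cpt_sphere k X f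
  refine Finset.sum_eq_zero fun i _ => ?_
  rw [h i k hk (g i), zero_comp]

/-- `BigCell a J`, `Conn m X` imply `Conn (m + a) (X ⊗ J)`. -/
theorem conn_tensor {m a : ℤ} {X J : T} (hX : Conn m X)
    (hJ : BigCell T a J) (p : ℤ) (h : m + a = p) : Conn p (X ⊗ J) := by
  induction hJ with
  | sphere k hk =>
    exact Conn.of_iso (tensorUnitShiftIso X k).symm ((hX.shift k (m + k) rfl).mono (by omega))
  | coprod Y _ ih =>
    exact Conn.of_iso (PreservesCoproduct.iso (tensorLeft X) Y).symm (conn_coprod _ ih)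
  | ext Δ hΔ _ _ ih₁ ih₃ =>
    exact Conn.ext _ (TensorTriangulated.distinguished X Δ hΔ) ih₁ ih₃

/-- one step of the Hurewicz argument -/
theorem conn_succ_of_isZero {H J : T} {e : 𝟙_ T ⟶ H} {a : H ⟶ J} {b : J ⟶ (𝟙_ T)⟦(1 : ℤ)⟧}
    (D : Dist e a b) (hJ : BigCell T 2 J) {m : ℤ} {Z : T} (hZ : Conn m Z)
    (h : IsZero (H ⊗ Z)) : Conn (m + 1) Z := by
  intro k hk f
  have hd := inv_rot_of_distTriang _ (TensorTriangulated.distinguished Z _ D)
  have h0 : IsZero (Z ⊗ H) := h.of_iso (β_ Z H)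
  have h2 : (f ≫ (ρ_ Z).inv) ≫ (Z ◁ e) = 0 := h0.eq_of_tgt _ _
  obtain ⟨g, hg⟩ := Triangle.coyoneda_exact₂ _ hd (f ≫ (ρ_ Z).inv) h2
  have h4 : g = 0 := by
    have h5 : Conn (m + 1) ((Z ⊗ J)⟦(-1 : ℤ)⟧) :=
      (conn_tensor hZ hJ (m + 2) rfl).shift (-1) (m + 1) (by ring)
    exact h5 k (by omega) g
  rw [h4, zero_comp] at hg
  rw [← cancel_mono (ρ_ Z).inv, zero_comp]
  exact hg

theorem isZero_of_conn {H J : T} {e : 𝟙_ T ⟶ H} {a : H ⟶ J} {b : J ⟶ (𝟙_ T)⟦(1 : ℤ)⟧}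
    (D : Dist e a b) (hJ : BigCell T 2 J) {m : ℤ} {Z : T} (hZ : Conn m Z)
    (h : IsZero (H ⊗ Z)) : IsZero Z := by
  refine isZero_of_forall_conn (fun X hX => StableCat.generator X hX) fun n => ?_
  have h1 : ∀ j : ℕ, Conn (m + j) Z := by
    intro j
    induction j with
    | zero => simpa using hZ
    | succ j ih => exact (conn_succ_of_isZero D hJ ih h).mono (by push_cast; omega)
  exact (h1 (n - m).toNat).mono (by omega)

/-! ### Telescopes of multiplications -/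

theorem trT_of_eq {X : T} (f : ∀ _ : ℕ, X ⟶ X) (hf : ∀ n, f n = ((n + 1 : ℕ) : ℤ) • 𝟙 X)
    (n k : ℕ) :
    trT (X := fun _ => X) f n k = (((n + 1).ascFactorial k : ℕ) : ℤ) • 𝟙 X := by
  have h : f = mulSeq X := funext hf
  subst h
  exact trT_mulSeq X n k

/-- If `H_ℚ ⊗ Y = 0` then `H ⊗ Y_ℚ = 0`. -/
theorem isZero_tensor_tel {H Y : T} (U : Tel (X := fun _ => H) (mulSeq H))
    (V : Tel (X := fun _ => Y) (mulSeq Y)) (h : IsZero (U.obj ⊗ Y)) : IsZero (H ⊗ V.obj) := by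
  refine StableCat.generator _ fun k g => ?_
  obtain ⟨n, a, rfl⟩ := (V.tensL H).exists_factor (cpt_sphere k) g
  obtain ⟨j, hj⟩ := (U.tensR Y).exists_eq_zero (cpt_sphere k) (n := 0) a (h.eq_of_tgt _ _)
  rw [trT_of_eq (fun n => mulSeq H n ▷ Y) (fun n => by
    rw [← id_whiskerRight]
    exact ((tensorRight Y).map_zsmul ..)), Preadditive.comp_zsmul, Category.comp_id] at hj
  have h2 := (V.tensL H).trT_ι n j
  rw [trT_of_eq (fun n => H ◁ mulSeq Y n) (fun n => by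
    rw [← whiskerLeft_id]
    exact ((tensorLeft H).map_zsmul ..)), Preadditive.zsmul_comp, Category.id_comp] at h2
  obtain ⟨c, hc⟩ : (((0 + 1).ascFactorial j : ℕ) : ℤ) ∣ (((n + 1).ascFactorial j : ℕ) : ℤ) := by
    rw [Int.natCast_dvd_natCast, zero_add, Nat.one_ascFactorial]
    exact Nat.factorial_dvd_ascFactorial _ _
  rw [← h2, hc, Preadditive.comp_zsmul, mul_comm, mul_smul, ← Preadditive.zsmul_comp, hj,
    zero_comp, smul_zero]
  rfl

/-- The cellular model of a rational ring object. -/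
theorem nonempty_iso_HQ [LocallySmall.{0} T] (F : SpaceFunctor T) {K : T} {η : 𝟙_ T ⟶ K}
    (hconc : ∀ k : ℤ, k ≠ 0 → ∀ g : (𝟙_ T)⟦k⟧ ⟶ K, g = 0) (hne : η ≠ 0)
    (hdiv : ∀ m : ℤ, m ≠ 0 → Function.Bijective (fun f : 𝟙_ T ⟶ K => m • f))
    (hgen : ∀ f : 𝟙_ T ⟶ K, ∃ a m : ℤ, m ≠ 0 ∧ m • f = a • η) :
    ∃ (H J : T) (e : 𝟙_ T ⟶ H) (a : H ⟶ J) (b : J ⟶ (𝟙_ T)⟦(1 : ℤ)⟧)
      (U : Tel (X := fun _ => H) (mulSeq H)),
      Dist e a b ∧ BigCell T 2 J ∧ Nonempty (U.obj ≅ K) := by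
  obtain ⟨H, e, hc, hp⟩ := exists_HZ (T := T)
  obtain ⟨J, a, b, D, hJ⟩ := hc
  have hJ' : Conn 2 J := hJ.conn (unit_conn F) (fun Y k f => StableCat.compact k Y f)
  have hpos : ∀ k : ℤ, k ≠ 0 → ∀ g : (𝟙_ T)⟦k⟧ ⟶ H, g = 0 := by
    intro k hk g
    rcases lt_or_gt_of_ne hk with h | h
    · exact conn_ring F D hJ' k h g
    · exact hp k (by omega) g
  have hint : ∀ f : 𝟙_ T ⟶ H, ∃ m : ℤ, f = m • e := exists_int_ring F D hJ'
  have hinj : ∀ m : ℤ, m • e = 0 → m = 0 := eq_zero_of_zsmul_unit F D hJ'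
  let U : Tel (X := fun _ => H) (mulSeq H) := tel _
  refine ⟨H, J, e, a, b, U, D, hJ, ?_⟩
  have h0 := hq_conc U hpos
  have hdiv' := hq_div U hint hinj
  have hiso : ∀ m : ℤ, m ≠ 0 → IsIso (m • 𝟙 K) := fun m hm => isIso_zsmul hconc (hdiv m hm)
  obtain ⟨g, hg⟩ := (bij_of_cofIn hconc (f := e) ⟨J, a, b, D, hJ⟩).2 η
  dsimp only at hg
  obtain ⟨l, hl⟩ := (bij_tel U hiso (𝟙_ T)).2 ((ρ_ H).hom ≫ g)
  dsimp only at hl
  let f : U.obj ⟶ K := (ρ_ U.obj).inv ≫ l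
  have hf : e ≫ U.ι 0 ≫ f = η := by
    have h1 : U.ι 0 ≫ f = g := by
      have h2 : U.ι 0 ≫ (ρ_ U.obj).inv = (ρ_ H).inv ≫ (U.ι 0 ▷ 𝟙_ T) :=
        (rightUnitor_inv_naturality (U.ι 0))
      rw [← Category.assoc, h2, Category.assoc, hl, Iso.inv_hom_id_assoc]
    rw [h1, hg]
  let ε : (𝟙_ T)⟦(0 : ℤ)⟧ ≅ 𝟙_ T := (shiftFunctorZero T ℤ).app (𝟙_ T)
  have : IsIso f := by
    refine isIso_of_bijective_hom (fun k => (𝟙_ T)⟦k⟧)
      (fun k k' h => ⟨((shiftFunctorAdd' T k 1 k' h).app (𝟙_ T)).symm⟩)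
      (fun X hX => StableCat.generator X hX) _ ?_ ?_
    · intro k x hx
      by_cases hk : k = 0
      · subst hk
        obtain ⟨a', m, hm, h1⟩ := hq_gen U hint (ε.inv ≫ x)
        have h2 : a' • η = 0 := by
          have h3 := congrArg (fun z => z ≫ f) h1
          simp only [Preadditive.zsmul_comp, Category.assoc] at h3
          rw [hx, comp_zero, smul_zero, hf] at h3
          exact h3.symm
        have h4 : a' = 0 := by
          by_contra h5
          exact hne ((hdiv a' h5).1 (by dsimp only; rw [h2, smul_zero]))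
        have h6 : ε.inv ≫ x = 0 := (hdiv' m hm).1 (by
          dsimp only
          rw [h1, h4, zero_smul, smul_zero])
        rw [← cancel_epi ε.inv, h6, comp_zero]
      · exact h0 k hk x
    · intro k y
      by_cases hk : k = 0
      · subst hk
        obtain ⟨a', m, hm, h1⟩ := hgen (ε.inv ≫ y)
        obtain ⟨z, hz⟩ := (hdiv' m hm).2 (a' • e ≫ U.ι 0)
        dsimp only at hz
        refine ⟨ε.hom ≫ z, ?_⟩
        rw [← cancel_epi ε.inv, Category.assoc, Iso.inv_hom_id_assoc]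
        refine (hdiv m hm).1 ?_
        dsimp only
        rw [h1, ← Preadditive.zsmul_comp, hz, Preadditive.zsmul_comp, Category.assoc, hf]
      · exact ⟨0, by rw [hconc k hk y, zero_comp]⟩
  exact ⟨asIso f⟩

/-- **The rational step**, for a compact object bounded below. -/
theorem exists_zsmul_eq_zero [LocallySmall.{0} T] (F : SpaceFunctor T) {K : T} {η : 𝟙_ T ⟶ K}
    (hconc : ∀ k : ℤ, k ≠ 0 → ∀ g : (𝟙_ T)⟦k⟧ ⟶ K, g = 0) (hne : η ≠ 0)
    (hdiv : ∀ m : ℤ, m ≠ 0 → Function.Bijective (fun f : 𝟙_ T ⟶ K => m • f))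
    (hgen : ∀ f : 𝟙_ T ⟶ K, ∃ a m : ℤ, m ≠ 0 ∧ m • f = a • η)
    {Y : T} (hY : Vale.Agent.P251.S.IsCpt Y) {n : ℤ} (hn : Conn n Y) (h : IsZero (K ⊗ Y)) :
    ∃ m : ℤ, m ≠ 0 ∧ m • 𝟙 Y = 0 := by
  obtain ⟨H, J, e, a, b, U, D, hJ, ⟨i⟩⟩ := nonempty_iso_HQ F hconc hne hdiv hgen
  let V : Tel (X := fun _ => Y) (mulSeq Y) := tel _
  have h1 : IsZero (U.obj ⊗ Y) := h.of_iso (whiskerRightIso i Y)
  have h2 : IsZero (H ⊗ V.obj) := isZero_tensor_tel U V h1
  have h3 : Conn n V.obj := by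
    intro k hk f
    obtain ⟨j, g, rfl⟩ := V.exists_factor (cpt_sphere k) f
    rw [hn k hk g, zero_comp]
  have h4 : IsZero V.obj := isZero_of_conn D hJ h3 h2
  obtain ⟨k, hk⟩ := V.exists_eq_zero hY (n := 0) (𝟙 Y) (h4.eq_of_tgt _ _)
  rw [trT_mulSeq, Category.id_comp] at hk
  exact ⟨_, asc_ne 0 k, hk⟩

/-! ### Dualizable objects are bounded below -/

theorem tensorRightHomEquiv_sum (X L Y : T) [ExactPairing L Y] {Z : T} {I : Type}
    (s : Finset I) (f : I → (X ⊗ L ⟶ Z)) :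
    tensorRightHomEquiv X L Y Z (∑ i ∈ s, f i) = ∑ i ∈ s, tensorRightHomEquiv X L Y Z (f i) := by
  let A : (X ⊗ L ⟶ Z) →+ (X ⟶ Z ⊗ Y) := AddMonoidHom.mk' (fun f => tensorRightHomEquiv X L Y Z f)
    (fun a b => by simp [tensorRightHomEquiv])
  exact map_sum A f s

theorem tensorRightHomEquiv_zero (X L Y : T) [ExactPairing L Y] (Z : T) :
    tensorRightHomEquiv X L Y Z 0 = 0 := by
  simpa using tensorRightHomEquiv_sum X L Y (Z := Z) (I := Empty) ∅ (fun _ => 0)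

/-- A dual of an object is compact. -/
theorem isCpt_of_dual (L Y : T) [ExactPairing L Y] : Vale.Agent.P251.S.IsCpt L := by
  intro I X f
  let E := fun Z : T => tensorRightHomEquiv (𝟙_ T) L Y Z
  let P := PreservesCoproduct.iso (tensorRight Y) X
  obtain ⟨s, g, hg⟩ := cpt_unit (T := T) (fun i => X i ⊗ Y) (E _ ((λ_ L).hom ≫ f) ≫ P.hom)
  refine ⟨s, fun i => (λ_ L).inv ≫ (E (X i)).symm (g i), ?_⟩
  have hι : ∀ i, Sigma.ι (fun i => X i ⊗ Y) i ≫ P.inv = Sigma.ι X i ▷ Y := fun i =>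
    ι_comp_sigmaComparison (tensorRight Y) X i
  have h1 : E _ ((λ_ L).hom ≫ f) = ∑ i ∈ s, g i ≫ (Sigma.ι X i ▷ Y) := by
    rw [← cancel_mono P.hom, hg, Preadditive.sum_comp]
    refine Finset.sum_congr rfl fun i _ => ?_
    rw [← hι i, Category.assoc, Category.assoc, Iso.inv_hom_id]
    exact congrArg _ (Category.comp_id _).symm
  rw [← cancel_epi (λ_ L).hom]
  refine (E _).injective ?_
  rw [h1, Preadditive.comp_sum]
  refine Eq.trans ?_ (tensorRightHomEquiv_sum (𝟙_ T) L Y s _).symm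
  refine Finset.sum_congr rfl fun i _ => ?_
  rw [Category.assoc, Iso.hom_inv_id_assoc, tensorRightHomEquiv_naturality]
  congr 1
  exact ((E (X i)).apply_symm_apply (g i)).symm

section bound

variable (F : SpaceFunctor T)

/-- the spheres of dimension `≥ 0` -/
abbrev sph (n : ℕ) : T := (𝟙_ T)⟦(n : ℤ)⟧

variable (T) in
/-- the map from the coproduct of the spheres to their product -/
noncomputable def sumProd : ∐ (sph (T := T)) ⟶ ∏ᶜ (sph (T := T)) :=
  Pi.lift fun n => sproj sph n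

include F in
theorem isIso_sumProd : IsIso (sumProd T) := by
  refine isIso_of_bijective_hom (fun k => (𝟙_ T)⟦k⟧)
    (fun k k' h => ⟨((shiftFunctorAdd' T k 1 k' h).app (𝟙_ T)).symm⟩)
    (fun X hX => StableCat.generator X hX) _ ?_ ?_
  · intro k x hx
    obtain ⟨s, g, rfl⟩ := cpt_sphere k _ x
    refine Finset.sum_eq_zero fun i hi => ?_
    have h1 := congrArg (fun z => z ≫ Pi.π sph i) hx
    simp only [Category.assoc, zero_comp] at h1
    rw [sumProd, Pi.lift_π, sum_sproj s g i hi] at h1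
    rw [h1, zero_comp]
  · intro k y
    refine ⟨∑ i ∈ Finset.range (k + 1).toNat, (y ≫ Pi.π sph i) ≫ Sigma.ι sph i, ?_⟩
    refine Pi.hom_ext _ _ fun i => ?_
    rw [sumProd, Category.assoc, Pi.lift_π]
    by_cases hi : i ∈ Finset.range (k + 1).toNat
    · rw [sum_sproj _ _ i hi]
    · have h1 : Conn (i : ℤ) (sph (T := T) i) := (unit_conn F).shift i i (by ring)
      rw [h1 k (by rw [Finset.mem_range] at hi; omega) (y ≫ Pi.π sph i), Preadditive.sum_comp]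
      refine Finset.sum_eq_zero fun j hj => ?_
      rw [Category.assoc, ι_sproj_ne sph (by rintro rfl; exact hi hj), comp_zero]

include F in
/-- There are no maps from a compact object to spheres of high dimension. -/
theorem exists_bound {L : T} (hL : Vale.Agent.P251.S.IsCpt L) :
    ∃ N : ℕ, ∀ n : ℕ, N ≤ n → ∀ f : L ⟶ sph n, f = 0 := by
  classical
  have := isIso_sumProd F
  let g : ∀ n : ℕ, L ⟶ sph n := fun n =>
    if h : ∃ f : L ⟶ sph n, f ≠ 0 then h.choose else 0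
  obtain ⟨s, a, ha⟩ := hL _ (Pi.lift g ≫ inv (sumProd T))
  have h1 : ∀ n ∉ s, g n = 0 := by
    intro n hn
    have h2 : g n = (Pi.lift g ≫ inv (sumProd T)) ≫ sumProd T ≫ Pi.π sph n := by simp
    rw [h2, ha, sumProd, Pi.lift_π, Preadditive.sum_comp]
    refine Finset.sum_eq_zero fun j hj => ?_
    rw [Category.assoc, ι_sproj_ne sph (by rintro rfl; exact hn hj), comp_zero]
  refine ⟨s.sup id + 1, fun n hn f => ?_⟩
  have hns : n ∉ s := fun h => by
    have := Finset.le_sup (f := id) h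
    simp only [id] at this
    omega
  by_contra hf
  have h3 : ∃ f : L ⟶ sph n, f ≠ 0 := ⟨f, hf⟩
  have h4 := h1 n hns
  simp only [g, dif_pos h3] at h4
  exact h3.choose_spec h4

include F in
/-- Dualizable objects are bounded below. -/
theorem exists_conn_of_dual (L Y : T) [ExactPairing L Y] : ∃ n : ℤ, Conn n Y := by
  obtain ⟨N, hN⟩ := exists_bound F (isCpt_of_dual L Y)
  refine ⟨1 - N, fun k hk f => ?_⟩
  -- `f` corresponds to a map `𝟙⟦k⟧ ⊗ L ⟶ 𝟙`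
  let E := tensorRightHomEquiv ((𝟙_ T)⟦k⟧) L Y (𝟙_ T)
  let f' : (𝟙_ T)⟦k⟧ ⊗ L ⟶ 𝟙_ T := E.symm (f ≫ (λ_ Y).inv)
  let i : L⟦k⟧ ≅ (𝟙_ T)⟦k⟧ ⊗ L := (tensorUnitShiftIso L k).symm ≪≫ β_ _ _
  obtain ⟨n, hn⟩ : ∃ n : ℕ, k + n = 0 := ⟨(-k).toNat, by omega⟩
  let j : L ≅ (L⟦k⟧)⟦(n : ℤ)⟧ := (shiftFunctorZero T ℤ).symm.app L ≪≫
    (shiftFunctorAdd' T k n 0 hn).app L
  have h1 : j.hom ≫ (i.hom ≫ f')⟦(n : ℤ)⟧' = 0 := hN n (by omega) _
  have h2 : f' = 0 := by
    rw [← cancel_epi i.hom, comp_zero]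
    apply (shiftFunctor T (n : ℤ)).map_injective
    rw [← cancel_epi j.hom, h1, Functor.map_zero, comp_zero]
  have h3 : f ≫ (λ_ Y).inv = 0 := by
    rw [← E.apply_symm_apply (f ≫ (λ_ Y).inv)]
    change E f' = 0
    rw [h2]
    exact tensorRightHomEquiv_zero _ _ _ _
  rw [← cancel_mono (λ_ Y).inv, h3, zero_comp]

end bound

/-! ### The rational step -/

/-- **The rational step**, for a dualizable object. -/
theorem exists_zsmul_eq_zero_of_dual [LocallySmall.{0} T] (F : SpaceFunctor T) {K : T}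
    {η : 𝟙_ T ⟶ K}
    (hconc : ∀ k : ℤ, k ≠ 0 → ∀ g : (𝟙_ T)⟦k⟧ ⟶ K, g = 0) (hne : η ≠ 0)
    (hdiv : ∀ m : ℤ, m ≠ 0 → Function.Bijective (fun f : 𝟙_ T ⟶ K => m • f))
    (hgen : ∀ f : 𝟙_ T ⟶ K, ∃ a m : ℤ, m ≠ 0 ∧ m • f = a • η)
    {Y : T} (hY : Vale.Agent.P251.S.IsCpt Y) (hD : ∃ L : T, Nonempty (ExactPairing L Y))
    (h : IsZero (K ⊗ Y)) : ∃ m : ℤ, m ≠ 0 ∧ m • 𝟙 Y = 0 := by
  obtain ⟨L, ⟨_⟩⟩ := hD
  obtain ⟨n, hn⟩ := exists_conn_of_dual F L Y
  exact exists_zsmul_eq_zero F hconc hne hdiv hgen hY hn h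

/-- The torsion exponent, split at a prime. -/
theorem exists_mul_pow {p : ℕ} (hp : p.Prime) {A : Type*} [AddCommGroup A] {x : A} {m : ℤ}
    (hm : m ≠ 0) (h : m • x = 0) :
    ∃ (m' : ℤ) (L : ℕ), m'.natAbs.Coprime p ∧ (m' * (p : ℤ) ^ L) • x = 0 := by
  obtain ⟨L, q, hq, hm'⟩ := Nat.exists_eq_pow_mul_and_not_dvd (n := m.natAbs)
    (Int.natAbs_ne_zero.2 hm) p hp.ne_one
  refine ⟨q, L, ?_, ?_⟩
  · rw [Int.natAbs_natCast, Nat.coprime_comm]
    exact (Nat.Prime.coprime_iff_not_dvd hp).2 hq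
  · have h1 : ((q : ℤ) * (p : ℤ) ^ L) = (m.natAbs : ℤ) := by
      rw [hm']
      push_cast
      ring
    rw [h1]
    rcases Int.natAbs_eq m with h2 | h2
    · rw [← h2]
      exact h
    · have h3 : ((m.natAbs : ℕ) : ℤ) = -m := by omega
      rw [h3, neg_smul, h, neg_zero]

/-- **The rational step**, in the form used in block NIL: `m p^L = 0` on `Y` with `m` prime to
`p`. -/
theorem exists_cop_mul_pow [LocallySmall.{0} T] (F : SpaceFunctor T) {p : ℕ} (hp : p.Prime)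
    {K : T} {η : 𝟙_ T ⟶ K}
    (hconc : ∀ k : ℤ, k ≠ 0 → ∀ g : (𝟙_ T)⟦k⟧ ⟶ K, g = 0) (hne : η ≠ 0)
    (hdiv : ∀ m : ℤ, m ≠ 0 → Function.Bijective (fun f : 𝟙_ T ⟶ K => m • f))
    (hgen : ∀ f : 𝟙_ T ⟶ K, ∃ a m : ℤ, m ≠ 0 ∧ m • f = a • η)
    {Y : T} (hY : Vale.Agent.P251.S.IsCpt Y) (hD : ∃ L : T, Nonempty (ExactPairing L Y))
    (h : IsZero (K ⊗ Y)) :
    ∃ (m : ℤ) (L : ℕ), m.natAbs.Coprime p ∧ (m * (p : ℤ) ^ L) • 𝟙 Y = 0 := by
  obtain ⟨m, hm, h1⟩ := exists_zsmul_eq_zero_of_dual F hconc hne hdiv hgen hY hD h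
  exact exists_mul_pow hp hm h1

end Vale.Agent.P241.H388
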